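import Vale.Agent.P155.QQ.Asm

/-!
# P155: the double-dimer CLE₄ conjecture

In every bounded simply connected domain the collection of the double-dimer loops of Temperleyan
approximations converges in law to nested CLE₄.
-/

namespace Vale.Agent.Results.P155.NestedLoopLimit

open MeasureTheory Filter Topology TopologicalSpace Vale.Agent.P155 Vale.Agent.P155.Q1

/-- **The double-dimer CLE₄ conjecture**: for every bounded simply connected domain `Ω` and all
Temperleyan approximations of `Ω`, the collection of the loops of two independent uniform perfect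
matchings converges in law to nested CLE₄ in `Ω`. -/
theorem result :
    ∀ Ω : Set ℂ, IsOpen Ω → Bornology.IsBounded Ω → Ω.Nonempty → SimplyConnectedSpace Ω →
    ∀ S : TempApprox Ω, ∀ μ : Measure LoopColl, IsNestedCLE4 Ω μ →
    ∀ F : LoopColl → ℝ, Continuous F → (∃ C, ∀ Γ, |F Γ| ≤ C) →
      Tendsto (fun n => Ex (S.T n).V (fun ω => F (LL (S.δ n) (S.a n) ω))) atTop
        (𝓝 (∫ Γ, F Γ ∂μ)) :=
  Vale.Agent.P155.QQ.q1

end Vale.Agent.Results.P155.NestedLoopLimit
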