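import Vale.Agent.P155.SW34.Final
import Vale.Agent.P155.SW802.LineP
import Vale.Agent.P155.SW613.Restr
import Vale.Agent.P155.SW924.Kstep

/-!
# P155: the double-dimer CLE₄ conjecture, with the Sheffield-Werner axioms of the limit

Nested CLE₄ exists, is unique and conformally invariant in every bounded simply connected domain,
it is the limit in law of the double-dimer loops for exactly those approximations whose polygons
stay near the domain; the loops of its first level are disjoint and have the restriction property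
of Sheffield and Werner, its conformal radii have the law of Schramm, Sheffield and Wilson for
`κ = 4`, and it is iterated by independent copies in the holes of its first carpet.
-/

namespace Vale.Agent.Results.P155.NestedLoopLimitExactAx

open MeasureTheory Filter Topology TopologicalSpace Vale.Agent.P155 Vale.Agent.P155.Q1
  Vale.Agent.P155.QQ

/-- **The double-dimer CLE₄ conjecture**, with the exact condition on the approximations, and the
axioms of nested CLE₄: conformal radii, iteration, disjointness, restriction. -/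
theorem result :
    (∀ Ω : Set ℂ, IsOpen Ω → Bornology.IsBounded Ω → Ω.Nonempty → SimplyConnectedSpace Ω →
      (∃ S : Approx Ω, S.Outer) ∧ ∃ μ : Measure LoopColl, IsProbabilityMeasure μ ∧
      IsNestedCLE4 Ω μ ∧ (∀ ν, IsNestedCLE4 Ω ν → ν = μ) ∧
      (∀ S : Approx Ω, ((∀ F : LoopColl → ℝ, Continuous F → (∃ C, ∀ Γ, |F Γ| ≤ C) →
          Tendsto (fun n => Ex (S.T n).V (fun ω => F (LL (S.δ n) (S.a n) ω))) atTop
            (𝓝 (∫ Γ, F Γ ∂μ))) ↔ S.Outer) ∧
        (IsConnected (closure Ω)ᶜ → S.Outer)) ∧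
      (∃ (Θ : Type) (_ : MeasurableSpace Θ) (P : Measure Θ) (G : ℕ → Θ → NonemptyCompacts ℂ)
        (ξ : ℕ → ℕ → Θ → ℝ) (Γ : Θ → LoopColl), NCLE.Nested P Ω G ξ Γ) ∧
      ∀ (Θ : Type) (_ : MeasurableSpace Θ) (P : Measure Θ) (G : ℕ → Θ → NonemptyCompacts ℂ)
        (ξ : ℕ → ℕ → Θ → ℝ) (Γ : Θ → LoopColl), NCLE.Nested P Ω G ξ Γ →
        P.map Γ = μ ∧ NCLE.Radii P Ω G ∧ NCLE.Iter P Ω G Γ ∧ NCLE.DisjointLoops P Ω G ∧
          NCLE.Restriction P Ω G Γ) ∧
    (∀ (Ω Ω' : Set ℂ) (f g : ℂ → ℂ), Bornology.IsBounded Ω → Bornology.IsBounded Ω' →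
      Ω.Nonempty → SimplyConnectedSpace Ω' → CI.Conf Ω Ω' f g →
      ∀ μ μ' : Measure LoopColl, IsNestedCLE4 Ω μ → IsNestedCLE4 Ω' μ' →
      ∃ (Θ : Type) (_ : MeasurableSpace Θ) (P : Measure Θ) (Γ Γ' : Θ → LoopColl),
        IsProbabilityMeasure P ∧ AEMeasurable Γ P ∧ AEMeasurable Γ' P ∧ P.map Γ = μ ∧
        P.map Γ' = μ' ∧ ∀ᵐ x ∂P, CI.MapsColl Ω Ω' f (Γ x) (Γ' x)) :=
  SW34.ax_of (SW613.restr_of SW924.kstep) SW802.dj

end Vale.Agent.Results.P155.NestedLoopLimitExactAx
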