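import Vale.Agent.P155.QQ.Asm
import Vale.Agent.P155.Outer

/-!
# P155: the double-dimer CLE₄ conjecture, approximations as in the problem

Polygons which converge in the Carathéodory sense and whose boundaries converge in the Hausdorff
metric; when the exterior of `Ω` is not connected, one also has to say that the polygons have no
macroscopic parts far from `Ω` (such pockets would carry macroscopic loops).
-/

namespace Vale.Agent.Results.P155.NestedLoopLimitGen

open MeasureTheory Filter Topology TopologicalSpace Vale.Agent.P155 Vale.Agent.P155.Q1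

/-- **The double-dimer CLE₄ conjecture**: for every bounded simply connected domain `Ω` and all
Temperleyan approximations of `Ω` (Carathéodory convergence of the polygons, Hausdorff convergence
of their boundaries, and, unless the exterior of `Ω` is connected, polygons in small
neighbourhoods of `Ω`), the collection of the loops of two independent uniform perfect
matchings converges in law to nested CLE₄ in `Ω`. -/
theorem result :
    ∀ Ω : Set ℂ, IsOpen Ω → Bornology.IsBounded Ω → Ω.Nonempty → SimplyConnectedSpace Ω →
    ∀ S : TempApprox₀ Ω, (IsConnected (closure Ω)ᶜ ∨ ∀ ε > 0, ∀ᶠ n in atTop,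
      region (S.δ n) (S.a n) (S.T n).faceSet ⊆ Metric.thickening ε Ω) →
    ∀ μ : Measure LoopColl, IsNestedCLE4 Ω μ →
    ∀ F : LoopColl → ℝ, Continuous F → (∃ C, ∀ Γ, |F Γ| ≤ C) →
      Tendsto (fun n => Ex (S.T n).V (fun ω => F (LL (S.δ n) (S.a n) ω))) atTop
        (𝓝 (∫ Γ, F Γ ∂μ)) := by
  intro Ω ho hb hne hsc S hS μ hμ F hF hFb
  rcases hS with hc | hout
  · exact Vale.Agent.P155.QQ.q1 Ω ho hb hne hsc (S.toTempApprox hb hc) μ hμ F hF hFb
  · exact Vale.Agent.P155.QQ.q1 Ω ho hb hne hsc
      { T := S.T, δ := S.δ, a := S.a, pos := S.pos, mesh := S.mesh, bdd := S.bdd,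
        cara₁ := S.cara₁, cara₂ := S.cara₂, haus₁ := S.haus₁, haus₂ := S.haus₂, outer := hout }
      μ hμ F hF hFb

end Vale.Agent.Results.P155.NestedLoopLimitGen
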