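import Vale.Agent.P155.U613.Asm
import Vale.Agent.P155.U613.Canon
import Vale.Agent.P155.U.CplLoc
import Vale.Agent.P155.U.Xex4
import Vale.Agent.P155.U.Ext

/-!
# P155: the nested double-dimer gaskets and their level heights converge in law (full sequence)
to the unique law of signed nested carpets with the Gaussian free field property
-/

namespace Vale.Agent.Results.P155.ZGasketLawLimit

open MeasureTheory Filter Topology TopologicalSpace Vale.Agent.P155

/-- Temperleyan double dimers in a bounded simply connected domain `Ω`: there is one and only one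
law of signed nested carpets (the identities of `IsSignedCarpets`), and for every sequence of
Temperleyan approximations of `Ω` the gaskets of all levels and the heights of the `k` outermost
loops converge jointly in law to it. -/
theorem result :
    ∀ Ω : Set ℂ, IsOpen Ω → Bornology.IsBounded Ω → Ω.Nonempty → SimplyConnectedSpace Ω →
    ∀ S : TempApprox Ω,
    (∃ (Θ : Type) (_ : MeasurableSpace Θ) (P : Measure Θ) (G : ℕ → Θ → NonemptyCompacts ℂ)
      (H : ℕ → Θ → (ℂ → ℝ) → ℝ), IsProbabilityMeasure P ∧ IsSignedCarpets P Ω G H) ∧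
    ∀ (Θ : Type) (_ : MeasurableSpace Θ) (P : Measure Θ) (G : ℕ → Θ → NonemptyCompacts ℂ)
      (H : ℕ → Θ → (ℂ → ℝ) → ℝ), IsProbabilityMeasure P → IsSignedCarpets P Ω G H →
    ∀ (k m : ℕ) (χ : Fin m → ℂ → ℝ), (∀ i, IsTest Ω (χ i)) →
    ∀ F : (Fin k → NonemptyCompacts ℂ) × (Fin k → Fin m → ℝ) → ℝ, Continuous F →
      (∃ C, ∀ y, |F y| ≤ C) →
      Tendsto (fun n =>
        Ex (S.T n).V (fun ω => F (fun l => toNC (gasket (S.δ n) (S.a n) (S.T n) l ω),
          fun l i => heightInt (S.δ n) (S.a n) l ω (χ i)))) atTop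
        (𝓝 (∫ x, F (fun l => G l x, fun l i => H l x (χ i)) ∂P)) :=
  U613.full_of_uniqueness
    (U613.uniqueness_of U613.canonStmt (Uq.Xe.existsCpl_of Uq.cplLocStmt) Uq.extStmt)
    Vale.Agent.P155.K.main

end Vale.Agent.Results.P155.ZGasketLawLimit
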